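import Mathlib
import Vale.Agent.P064.SpreadThresholds
import Vale.Agent.P064.BoundedDegree

namespace Vale.Agent.Results.P064.BoundedDegree

open Vale.Agent.P064 SimpleGraph

open scoped Classical

lemma bound_by_pE {V : Type} {n : ℕ} {H : SimpleGraph V} {A c : ℝ} [Fintype V]
    (hn : Fintype.card V ≤ n) (hc : 0 < c)
    (h : ∀ p : ℝ, 0 ≤ p → (∀ F : H.Subgraph, 1 / 2 ≤ expCopies n p F.coe) → A ≤ c * p) :
    A ≤ c * pE n H := by
  rw [mul_comm, ← div_le_iff₀ hc]
  refine le_csInf ⟨1, zero_le_one, le_rfl, fun F => one_mem_pE H hn F⟩ ?_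
  intro p hp
  rw [div_le_iff₀ hc, mul_comm]
  exact h p hp.1 hp.2.2

lemma log_two_bound (m : ℕ) (hm : 1 ≤ m) :
    (Nat.log 2 m : ℝ) + 2 ≤ 5 * Real.log ((m : ℝ) + 1) := by
  have hm' : (1 : ℝ) ≤ m := by exact_mod_cast hm
  have h1 : (Nat.log 2 m : ℝ) * Real.log 2 ≤ Real.log ((m : ℝ) + 1) := by
    rw [← Real.log_pow]
    refine Real.log_le_log (by positivity) ?_
    have : ((2 ^ Nat.log 2 m : ℕ) : ℝ) ≤ (m : ℝ) := by
      exact_mod_cast Nat.pow_log_le_self 2 (by omega)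
    push_cast at this
    linarith
  have h2 : Real.log 2 ≤ Real.log ((m : ℝ) + 1) :=
    Real.log_le_log (by norm_num) (by linarith)
  have h3 := Real.log_two_gt_d9
  have h4 : (0 : ℝ) ≤ (Nat.log 2 m : ℝ) := Nat.cast_nonneg _
  nlinarith

/-- The image of a graph of maximum degree `Δ` has maximum degree `Δ`. -/
lemma image_degree {V : Type} [Fintype V] {n : ℕ} {H : SimpleGraph V} {Δ : ℕ}
    (hΔ : ∀ v, H.degree v ≤ Δ) (f₀ : V ↪ Fin n) (a : Fin n) :
    ((imageEdges H f₀).filter fun e => a ∈ e).card ≤ Δ := by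
  by_cases ha : ∃ v, f₀ v = a
  · obtain ⟨v, rfl⟩ := ha
    refine le_trans ?_ (hΔ v)
    rw [← SimpleGraph.card_incidenceFinset_eq_degree]
    refine le_trans (Finset.card_le_card (t := (H.incidenceFinset v).image (Sym2.map f₀))
      fun e he => ?_) Finset.card_image_le
    obtain ⟨he, hve⟩ := Finset.mem_filter.1 he
    obtain ⟨e', he', rfl⟩ := Finset.mem_image.1 he
    obtain ⟨w, hw, hwv⟩ := Sym2.mem_map.1 hve
    obtain rfl := f₀.injective hwv
    refine Finset.mem_image.2 ⟨e', ?_, rfl⟩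
    rw [SimpleGraph.mem_incidenceFinset]
    exact ⟨SimpleGraph.mem_edgeFinset.1 he', hw⟩
  · refine le_trans (le_of_eq (Finset.card_eq_zero.2 ?_)) (Nat.zero_le _)
    refine Finset.filter_eq_empty_iff.2 fun e he hae => ha ?_
    obtain ⟨e', -, rfl⟩ := Finset.mem_image.1 he
    obtain ⟨w, -, hw⟩ := Sym2.mem_map.1 hae
    exact ⟨w, hw⟩

/-- `p̃_E = O(Δ p_E)` and `p_c = O(Δ p_E log n)` for graphs of maximum degree at most `Δ`. -/
theorem result : ∃ C : ℝ, 0 < C ∧ ∀ (n : ℕ), 2 ≤ n → ∀ (V : Type) [Fintype V]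
    (H : SimpleGraph V), Fintype.card V ≤ n → H.edgeSet.Nonempty →
      ∀ Δ : ℕ, (∀ v, H.degree v ≤ Δ) →
        pEtilde n H ≤ C * Δ * pE n H ∧
        pc n H ≤ C * Δ * pE n H * Real.log ((H.edgeSet.ncard : ℝ) + 1) ∧
        pc n H ≤ C * Δ * pE n H * Real.log (n : ℝ) := by
  refine ⟨200000, by norm_num, fun n hn V _ H hV hne Δ hdeg => ?_⟩
  obtain ⟨f₀⟩ : Nonempty (V ↪ Fin n) :=
    Function.Embedding.nonempty_of_card_le (by simpa using hV)
  have hΔ : 1 ≤ Δ := by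
    obtain ⟨e, he⟩ := hne
    induction e using Sym2.ind with
    | _ a b => exact ((H.degree_pos_iff_exists_adj a).2 ⟨b, he⟩).trans_le (hdeg a)
  set m := H.edgeFinset.card with hm
  have hncard : H.edgeSet.ncard = m := by
    rw [hm, ← SimpleGraph.coe_edgeFinset, Set.ncard_coe_finset]
  have hm1 : 1 ≤ m := Finset.card_pos.2 ⟨_, SimpleGraph.mem_edgeFinset.2 hne.choose_spec⟩
  rw [hncard]
  set ℓ := (Nat.log 2 m : ℝ) + 2 with hl
  set L := Real.log ((m : ℝ) + 1) with hLdef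
  have hlL : ℓ ≤ 5 * L := log_two_bound m hm1
  have hl0 : 0 < ℓ := by positivity
  have hΔ0 : (0 : ℝ) < Δ := by exact_mod_cast hΔ
  have hspread : ∀ p : ℝ, 0 ≤ p → (∀ F : H.Subgraph, 1 / 2 ≤ expCopies n p F.coe) →
      ∀ F : Finset (Sym2 (Fin n)), (cnt (Equiv.Perm (Fin n)) F (imageEdges H f₀) : ℝ) ≤
        (Fintype.card (Equiv.Perm (Fin n)) : ℝ) * ((864 * (Δ : ℝ)) * p) ^ F.card :=
    fun p hp h F => BDeg.cnt_le_degree hp (sparse_of_pE f₀ hp h) hΔ (image_degree hdeg f₀) F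
  have hE0 : 0 ≤ pE n H := Real.sInf_nonneg fun x hx => hx.1
  have hA : pEtilde n H ≤ 864 * Δ * pE n H :=
    bound_by_pE hV (by positivity) fun p hp h =>
      pEtilde_le_of_spread f₀ hp (by positivity) (hspread p hp h)
  have hB : pc n H ≤ 16 * ℓ * (864 * Δ) * pE n H :=
    bound_by_pE hV (by positivity) fun p hp h =>
      pc_le_of_spread f₀ hne hp (by positivity) (sparse_of_pE f₀ hp h) (hspread p hp h)
  have hLn : L ≤ 2 * Real.log (n : ℝ) := by
    have hmn : m + 1 ≤ n ^ 2 := by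
      have h1 : m ≤ (Fintype.card V).choose 2 := SimpleGraph.card_edgeFinset_le_card_choose_two
      have h2 : (Fintype.card V).choose 2 ≤ n.choose 2 := Nat.choose_le_choose 2 hV
      have h3 : n.choose 2 + 1 ≤ n ^ 2 := by
        rw [Nat.choose_two_right, pow_two]
        have h4 := Nat.div_le_self (n * (n - 1)) 2
        have h5 : n * (n - 1) + n = n * n := by
          conv_rhs => rw [show n = (n - 1) + 1 by omega]
          conv_lhs => rw [show n = (n - 1) + 1 by omega]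
          simp only [Nat.add_sub_cancel]
          ring
        omega
      omega
    rw [hLdef, show (2 : ℝ) * Real.log (n : ℝ) = ((2 : ℕ) : ℝ) * Real.log (n : ℝ) by norm_num,
      ← Real.log_pow]
    refine Real.log_le_log (by positivity) ?_
    exact_mod_cast hmn
  have hlogn : 0 ≤ Real.log (n : ℝ) := by linarith
  have hp0 : 0 ≤ (Δ : ℝ) * pE n H := mul_nonneg hΔ0.le hE0
  have e1 := mul_le_mul_of_nonneg_right hlL hp0
  have e2 := mul_le_mul_of_nonneg_right hLn hp0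
  have p1 : 0 ≤ L * ((Δ : ℝ) * pE n H) := mul_nonneg (by linarith) hp0
  have p2 : 0 ≤ Real.log (n : ℝ) * ((Δ : ℝ) * pE n H) := mul_nonneg hlogn hp0
  refine ⟨?_, ?_, ?_⟩ <;> nlinarith

end Vale.Agent.Results.P064.BoundedDegree
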