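import Mathlib
import Vale.Agent.P064.Defs
import Vale.Agent.P064.SpreadThresholds
import Vale.Agent.P064.DenseRegime

namespace Vale.Agent.Results.P064.DenseRegime

open Vale.Agent.P064 SimpleGraph

open scoped Classical

lemma le_mul_pE {V : Type} {n : ℕ} {H : SimpleGraph V} {A c : ℝ} [Fintype V]
    (hn : Fintype.card V ≤ n) (hc : 0 < c)
    (h : ∀ p : ℝ, 0 ≤ p → (∀ F : H.Subgraph, 1 / 2 ≤ expCopies n p F.coe) → A ≤ c * p) :
    A ≤ c * pE n H := by
  rw [mul_comm, ← div_le_iff₀ hc]
  refine le_csInf ⟨1, zero_le_one, le_rfl, fun F => one_mem_pE H hn F⟩ ?_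
  intro p hp
  rw [div_le_iff₀ hc, mul_comm]
  exact h p hp.1 hp.2.2

lemma natLog_add_two_le (n m : ℕ) (hn : 2 ≤ n) (hm : m ≤ n ^ 2) :
    (Nat.log 2 m : ℝ) + 2 ≤ 10 * Real.log (n : ℝ) := by
  have hz : Real.log 2 ≤ Real.log (n : ℝ) := Real.log_le_log (by norm_num) (by exact_mod_cast hn)
  have h2 := Real.log_two_gt_d9
  have h1 : (Nat.log 2 m : ℝ) * Real.log 2 ≤ 2 * Real.log (n : ℝ) := by
    rcases Nat.eq_zero_or_pos m with rfl | hm0
    · simp only [Nat.log_zero_right, Nat.cast_zero, zero_mul]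
      linarith
    · rw [← Real.log_pow, show (2 : ℝ) * Real.log (n : ℝ) = ((2 : ℕ) : ℝ) * Real.log (n : ℝ) by
        norm_num, ← Real.log_pow]
      refine Real.log_le_log (by positivity) ?_
      exact_mod_cast (Nat.pow_log_le_self 2 (by omega)).trans hm
  have h3 : (0 : ℝ) ≤ (Nat.log 2 m : ℝ) := Nat.cast_nonneg _
  nlinarith

lemma card_edges_le {V : Type} [Fintype V] (H : SimpleGraph V) (n : ℕ)
    (hV : Fintype.card V ≤ n) : H.edgeFinset.card ≤ n ^ 2 := by
  refine (SimpleGraph.card_edgeFinset_le_card_choose_two).trans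
    ((Nat.choose_le_choose 2 hV).trans ?_)
  rw [Nat.choose_two_right, pow_two]
  exact (Nat.div_le_self _ _).trans (Nat.mul_le_mul_left _ (Nat.sub_le _ _))

/-- The bound of the conjecture up to `exp (C · log log n · log (1/p_E) / log n)`, so in full when
`p_E ≥ n ^ (- A / log log n)`. -/
theorem result : (∃ C : ℝ, 0 < C ∧ ∀ (n : ℕ), 2 ≤ n → ∀ (V : Type) [Fintype V]
    (H : SimpleGraph V), Fintype.card V ≤ n → H.edgeSet.Nonempty →
      pEtilde n H ≤ C * pE n H * Real.exp (C * Real.log (Real.log (n : ℝ) + 2) *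
          Real.log (1 / pE n H) / Real.log (n : ℝ)) ∧
      pc n H ≤ C * pE n H * Real.exp (C * Real.log (Real.log (n : ℝ) + 2) *
          Real.log (1 / pE n H) / Real.log (n : ℝ)) * Real.log (n : ℝ)) ∧
    ∀ A : ℝ, ∃ C : ℝ, 0 < C ∧ ∀ (n : ℕ), 2 ≤ n → ∀ (V : Type) [Fintype V]
      (H : SimpleGraph V), Fintype.card V ≤ n → H.edgeSet.Nonempty →
        (n : ℝ) ^ (-(A / Real.log (Real.log (n : ℝ) + 2))) ≤ pE n H →
          pEtilde n H ≤ C * pE n H ∧ pc n H ≤ C * pE n H * Real.log (n : ℝ) := by
  set C := 160 * Real.exp 30 with hC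
  have hC0 : 0 < C := by positivity
  have main : ∀ (n : ℕ), 2 ≤ n → ∀ (V : Type) [Fintype V]
    (H : SimpleGraph V), Fintype.card V ≤ n → H.edgeSet.Nonempty →
      0 < pE n H ∧
      pEtilde n H ≤ C * pE n H * Real.exp (C * Real.log (Real.log (n : ℝ) + 2) *
          Real.log (1 / pE n H) / Real.log (n : ℝ)) ∧
      pc n H ≤ C * pE n H * Real.exp (C * Real.log (Real.log (n : ℝ) + 2) *
          Real.log (1 / pE n H) / Real.log (n : ℝ)) * Real.log (n : ℝ) := by
    intro n hn V _ H hV hne
    obtain ⟨f₀⟩ : Nonempty (V ↪ Fin n) :=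
      Function.Embedding.nonempty_of_card_le (by simpa using hV)
    set m := H.edgeFinset.card with hm
    have hcard : (imageEdges H f₀).card = m := key_card H f₀
    have hm0 : 0 < m := Finset.card_pos.2 ⟨_, SimpleGraph.mem_edgeFinset.2 hne.choose_spec⟩
    have hloop : ∀ e ∈ imageEdges H f₀, ¬e.IsDiag := by
      intro e he hd
      obtain ⟨e', he', rfl⟩ := Finset.mem_image.1 he
      rw [Sym2.isDiag_map f₀.injective] at hd
      exact H.not_isDiag_of_mem_edgeSet (SimpleGraph.mem_edgeFinset.1 he') hd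
    set z := Real.log (n : ℝ) with hz
    have hz0 : 0 < z := Real.log_pos (by exact_mod_cast (show 1 < n by omega))
    have hn0 : (0 : ℝ) < (n : ℝ) := by exact_mod_cast (show 0 < n by omega)
    -- feasible densities are not tiny
    have hlow : ∀ p : ℝ, 0 ≤ p → (∀ F : H.Subgraph, 1 / 2 ≤ expCopies n p F.coe) →
        1 / (2 * (n : ℝ) ^ 2) ≤ 1 * p := by
      intro p hp h
      have hsp := sparse_of_pE f₀ hp h
      obtain ⟨e, he⟩ : (imageEdges H f₀).Nonempty := Finset.card_pos.1 (by omega)
      have hppos : 0 < p := by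
        rcases eq_or_lt_of_le hp with h0 | h0
        · exfalso
          have h1 := hsp {e} (Finset.singleton_subset_iff.2 he)
          rw [← h0, Finset.card_singleton, pow_one, mul_zero, zero_mul] at h1
          have h2 : (1 : ℝ) ≤ (stab (Equiv.Perm (Fin n)) ({e} : Finset (Sym2 (Fin n))) : ℝ) := by
            exact_mod_cast Finset.card_pos.2 ⟨1, by simp⟩
          linarith
        · exact h0
      have hU := Dense.sparse_edges hppos (by omega) hsp (Finset.singleton_subset_iff.2 he)
        (Finset.Subset.refl (BDeg.vset {e}))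
      have hv2 : ((BDeg.vset ({e} : Finset (Sym2 (Fin n)))).card : ℝ) ≤ 2 := by
        exact_mod_cast (BDeg.vset_card_le _).trans (le_of_eq (by simp))
      rw [Finset.card_singleton, Nat.cast_one, one_mul, ← hz] at hU
      have h3 := mul_le_mul_of_nonneg_right hv2 hz0.le
      rw [one_mul, ← Real.exp_log hppos, ← Real.exp_log (show (0 : ℝ) < 1 / (2 * (n : ℝ) ^ 2) by
        positivity), one_div, Real.log_inv, Real.log_mul (by norm_num) (by positivity),
        Real.log_pow]
      refine Real.exp_le_exp.2 ?_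
      push_cast
      rw [← hz]
      linarith
    have hpE0 : 0 < pE n H := by
      have := le_mul_pE hV one_pos hlow
      have h2 : (0 : ℝ) < 1 / (2 * (n : ℝ) ^ 2) := by positivity
      linarith
    refine ⟨hpE0, ?_⟩
    have hpE1 : pE n H ≤ 1 :=
      csInf_le ⟨0, fun x hx => hx.1⟩ ⟨zero_le_one, le_rfl, fun F => one_mem_pE H hV F⟩
    set l := Real.log (1 / pE n H) with hldef
    have hlE : l = -Real.log (pE n H) := by rw [hldef, one_div, Real.log_inv]
    have hl0 : 0 ≤ l := by
      rw [hlE]; linarith [Real.log_nonpos hpE0.le hpE1]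
    set v := Real.log (Real.log (n : ℝ) + 2) with hv
    have hv1 : Real.log 2 ≤ v := Real.log_le_log (by norm_num) (by rw [← hz]; linarith)
    have h2 := Real.log_two_gt_d9
    have hM : (Nat.log 2 m : ℝ) + 2 ≤ 10 * z := natLog_add_two_le n m hn (card_edges_le H n hV)
    have hw : Real.log ((Nat.log 2 m : ℝ) + 2) ≤ 5 * v := by
      refine (Real.log_le_log (by positivity) (hM.trans (show 10 * z ≤ 16 * (z + 2) by
        linarith))).trans ?_
      rw [Real.log_mul (by norm_num) (by linarith), show (16 : ℝ) = 2 ^ 4 by norm_num, Real.log_pow]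
      push_cast
      rw [hv, ← hz] at hv1 ⊢
      linarith
    set c := Real.exp (30 + 20 * v * l / z) with hc
    have hc0 : 0 < c := Real.exp_pos _
    have hspread : ∀ p : ℝ, 0 ≤ p → (∀ F : H.Subgraph, 1 / 2 ≤ expCopies n p F.coe) →
        ∀ F : Finset (Sym2 (Fin n)), (cnt (Equiv.Perm (Fin n)) F (imageEdges H f₀) : ℝ) ≤
          (Fintype.card (Equiv.Perm (Fin n)) : ℝ) * (c * p) ^ F.card := by
      intro p hp h F
      have hppos : 0 < p := by
        have := hlow p hp h
        have h3 : (0 : ℝ) < 1 / (2 * (n : ℝ) ^ 2) := by positivity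
        linarith
      refine (Dense.cnt_le_dense hppos hn (sparse_of_pE f₀ hp h) hloop F).trans
        (mul_le_mul_of_nonneg_left (pow_le_pow_left₀ (by positivity)
          (mul_le_mul_of_nonneg_right (Real.exp_le_exp.2 ?_) hp) _) (Nat.cast_nonneg _))
      rw [hcard, ← hz]
      have hmax : max 0 (-Real.log p) ≤ l := by
        refine max_le hl0 ?_
        rcases le_or_gt p 1 with hp1 | hp1
        · rw [hlE]
          have hle : pE n H ≤ p := csInf_le ⟨0, fun x hx => hx.1⟩ ⟨hp, hp1, h⟩
          linarith [Real.log_le_log hpE0 hle]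
        · linarith [Real.log_nonneg hp1.le]
      have h4 : 4 * Real.log ((Nat.log 2 m : ℝ) + 2) * max 0 (-Real.log p) ≤ 20 * v * l :=
        mul_le_mul (by linarith) hmax (le_max_left _ _) (by linarith)
      have h5 := div_le_div_of_nonneg_right h4 hz0.le
      linarith
    have hA : pEtilde n H ≤ c * pE n H :=
      le_mul_pE hV hc0 fun p hp h => pEtilde_le_of_spread f₀ hp hc0 (hspread p hp h)
    have hB : pc n H ≤ 16 * ((Nat.log 2 m : ℝ) + 2) * c * pE n H :=
      le_mul_pE hV (by positivity) fun p hp h =>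
        pc_le_of_spread f₀ hne hp hc0 (sparse_of_pE f₀ hp h) (hspread p hp h)
    set E := Real.exp (C * v * l / z) with hE
    have hcE : c ≤ Real.exp 30 * E := by
      rw [hc, hE, ← Real.exp_add]
      refine Real.exp_le_exp.2 ?_
      have h20 : (20 : ℝ) ≤ C := by
        rw [hC]; linarith [Real.one_le_exp (show (0 : ℝ) ≤ 30 by norm_num)]
      have := div_le_div_of_nonneg_right (mul_le_mul_of_nonneg_right
        (mul_le_mul_of_nonneg_right h20 (show (0 : ℝ) ≤ v by linarith)) hl0) hz0.le
      linarith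
    have hX : 0 ≤ Real.exp 30 * E * pE n H :=
      mul_nonneg (mul_nonneg (Real.exp_pos _).le (Real.exp_pos _).le) hpE0.le
    constructor
    · refine hA.trans ((mul_le_mul_of_nonneg_right hcE hpE0.le).trans ?_)
      rw [hC]
      linarith
    · refine hB.trans ?_
      calc 16 * ((Nat.log 2 m : ℝ) + 2) * c * pE n H
          ≤ 16 * (10 * z) * (Real.exp 30 * E) * pE n H := by
            refine mul_le_mul_of_nonneg_right ?_ hpE0.le
            exact mul_le_mul (by linarith) hcE hc0.le (by linarith)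
        _ = _ := by rw [hC]; ring
  refine ⟨⟨C, hC0, fun n hn V _ H hV hne => (main n hn V H hV hne).2⟩, fun A => ?_⟩
  refine ⟨C * Real.exp (C * A), by positivity, fun n hn V _ H hV hne hA => ?_⟩
  obtain ⟨hpE0, h1, h2⟩ := main n hn V H hV hne
  set z := Real.log (n : ℝ) with hz
  have hz0 : 0 < z := Real.log_pos (by exact_mod_cast (show 1 < n by omega))
  have hn0 : (0 : ℝ) < (n : ℝ) := by exact_mod_cast (show 0 < n by omega)
  have hv0 : 0 < Real.log (z + 2) := Real.log_pos (by linarith)
  have hexp : Real.exp (C * Real.log (z + 2) * Real.log (1 / pE n H) / z) ≤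
      Real.exp (C * A) := by
    refine Real.exp_le_exp.2 ?_
    have h3 := Real.log_le_log (Real.rpow_pos_of_pos hn0 _) hA
    rw [Real.log_rpow hn0, ← hz, neg_mul, div_mul_eq_mul_div] at h3
    rw [one_div, Real.log_inv, div_le_iff₀ hz0]
    have h4 : -Real.log (pE n H) * Real.log (z + 2) ≤ A * z := by
      rw [← le_div_iff₀ hv0]
      linarith
    calc C * Real.log (z + 2) * -Real.log (pE n H)
        = C * (-Real.log (pE n H) * Real.log (z + 2)) := by ring
      _ ≤ C * (A * z) := mul_le_mul_of_nonneg_left h4 hC0.le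
      _ = _ := by ring
  have hP : 0 ≤ C * pE n H := (mul_pos hC0 hpE0).le
  constructor
  · refine h1.trans ((mul_le_mul_of_nonneg_left hexp hP).trans (le_of_eq ?_))
    ring
  · refine h2.trans ((mul_le_mul_of_nonneg_right
      (mul_le_mul_of_nonneg_left hexp hP) hz0.le).trans (le_of_eq ?_))
    ring

end Vale.Agent.Results.P064.DenseRegime
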