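import Mathlib
import Vale.Agent.P064.Defs
import Vale.Agent.P064.SpreadThresholds
import Vale.Agent.P064.MergeLevels

namespace Vale.Agent.Results.P064.NearlyOneLog

open Vale.Agent.P064 SimpleGraph

open scoped Classical

lemma le_mul_pE {V : Type} {n : ℕ} {H : SimpleGraph V} {A c : ℝ} [Fintype V]
    (hn : Fintype.card V ≤ n) (hc : 0 < c)
    (h : ∀ p : ℝ, 0 ≤ p → (∀ F : H.Subgraph, 1 / 2 ≤ expCopies n p F.coe) → A ≤ c * p) :
    A ≤ c * pE n H := by
  rw [mul_comm, ← div_le_iff₀ hc]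
  refine le_csInf ⟨1, zero_le_one, le_rfl, fun F => one_mem_pE H hn F⟩ ?_
  intro p hp
  rw [div_le_iff₀ hc, mul_comm]
  exact h p hp.1 hp.2.2

lemma natLog_add_two (m : ℕ) (hm : 1 ≤ m) :
    (Nat.log 2 m : ℝ) + 2 ≤ 5 * Real.log ((m : ℝ) + 1) := by
  have hm' : (1 : ℝ) ≤ m := by exact_mod_cast hm
  have h1 : (Nat.log 2 m : ℝ) * Real.log 2 ≤ Real.log ((m : ℝ) + 1) := by
    rw [← Real.log_pow]
    refine Real.log_le_log (by positivity) ?_
    have : ((2 ^ Nat.log 2 m : ℕ) : ℝ) ≤ (m : ℝ) := by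
      exact_mod_cast Nat.pow_log_le_self 2 (by omega)
    push_cast at this
    linarith
  have h2 : Real.log 2 ≤ Real.log ((m : ℝ) + 1) :=
    Real.log_le_log (by norm_num) (by linarith)
  have h3 := Real.log_two_gt_d9
  have h4 : (0 : ℝ) ≤ (Nat.log 2 m : ℝ) := Nat.cast_nonneg _
  nlinarith

lemma log_edges_le (n : ℕ) (hn : 2 ≤ n) {V : Type} [Fintype V] (H : SimpleGraph V)
    (hV : Fintype.card V ≤ n) :
    Real.log ((H.edgeFinset.card : ℝ) + 1) ≤ 2 * Real.log (n : ℝ) := by
  have hmn : H.edgeFinset.card + 1 ≤ n ^ 2 := by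
    have h1 : H.edgeFinset.card ≤ (Fintype.card V).choose 2 :=
      SimpleGraph.card_edgeFinset_le_card_choose_two
    have h2 : (Fintype.card V).choose 2 ≤ n.choose 2 := Nat.choose_le_choose 2 hV
    have h3 : n.choose 2 + 1 ≤ n ^ 2 := by
      rw [Nat.choose_two_right, pow_two]
      have h4 := Nat.div_le_self (n * (n - 1)) 2
      have h5 : n * (n - 1) + n = n * n := by
        rw [Nat.mul_sub, mul_one, Nat.sub_add_cancel (Nat.le_mul_self n)]
      omega
    omega
  rw [show (2 : ℝ) * Real.log (n : ℝ) = ((2 : ℕ) : ℝ) * Real.log (n : ℝ) by norm_num,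
    ← Real.log_pow]
  exact Real.log_le_log (by positivity) (by exact_mod_cast hmn)

/-- The factor replacing the lost logarithm. -/
noncomputable def slow (x : ℝ) : ℝ := Real.exp (Real.sqrt (Real.log (Real.log x + 2)))

/-- The merge bound with the parameters chosen, for a set of `m` points. -/
lemma exists_spread_factor : ∃ C : ℝ, 1 ≤ C ∧ ∀ m : ℕ, 1 ≤ m → ∃ D d L : ℕ, 0 < D ∧ 0 < d ∧
    m + 1 ≤ 2 ^ L ∧ Real.exp (-(D : ℝ)) * ((L : ℝ) + 1) ≤ 1 ∧
    55296 * ((D : ℝ) + 1) * (2 : ℝ) ^ d *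
      Real.exp (3 + 4 * (Real.log ((L : ℝ) + 1) + 1) / d) ≤
      C * slow ((m : ℝ) + 1) ^ 14 := by
  refine ⟨55296 * 4 * Real.exp 7, by linarith [Real.one_le_exp (show (0 : ℝ) ≤ 7 by norm_num)],
    fun m hm => ?_⟩
  set L := Nat.log 2 (m + 1) + 1 with hLdef
  set w := Real.log ((L : ℝ) + 1) with hw
  have hL1 : (1 : ℝ) ≤ L := by rw [hLdef]; push_cast; linarith [Nat.cast_nonneg (α := ℝ) (Nat.log 2 (m + 1))]
  have hw0 : 0 < w := Real.log_pos (by linarith)
  set D := ⌈w⌉₊ with hD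
  set d := ⌈Real.sqrt w⌉₊ with hd
  have hs0 : 0 < Real.sqrt w := Real.sqrt_pos.2 hw0
  refine ⟨D, d, L, Nat.ceil_pos.2 hw0, Nat.ceil_pos.2 hs0,
    (Nat.lt_pow_succ_log_self (by norm_num) _).le, ?_, ?_⟩
  · rw [Real.exp_neg, inv_mul_le_iff₀ (Real.exp_pos _), mul_one,
      ← Real.log_le_iff_le_exp (by linarith), ← hw]
    exact Nat.le_ceil w
  set s := Real.sqrt w with hs
  have hss : s * s = w := Real.mul_self_sqrt hw0.le
  have hDle : (D : ℝ) + 1 ≤ 2 * Real.exp (2 * s) := by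
    have h1 : (D : ℝ) < w + 1 := Nat.ceil_lt_add_one hw0.le
    have h2 : s + 1 ≤ Real.exp s := Real.add_one_le_exp s
    have h3 : (s + 1) * (s + 1) ≤ Real.exp (2 * s) := by
      rw [two_mul, Real.exp_add]
      exact mul_le_mul h2 h2 (by linarith) (Real.exp_pos _).le
    nlinarith
  have hdle : (2 : ℝ) ^ d ≤ 2 * Real.exp s := by
    have h1 : (d : ℝ) < s + 1 := Nat.ceil_lt_add_one hs0.le
    rw [← Real.rpow_natCast, Real.rpow_def_of_pos (by norm_num)]
    conv_rhs => rw [← Real.exp_log (show (0 : ℝ) < 2 by norm_num), ← Real.exp_add]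
    refine Real.exp_le_exp.2 ?_
    have := Real.log_two_lt_d9
    have := Real.log_two_gt_d9
    nlinarith
  have hsd : s ≤ (d : ℝ) := Nat.le_ceil s
  have hd1 : (1 : ℝ) ≤ d := by exact_mod_cast Nat.ceil_pos.2 hs0
  have hfrac : 3 + 4 * (w + 1) / (d : ℝ) ≤ 7 + 4 * s := by
    have : 4 * (w + 1) / (d : ℝ) ≤ 4 + 4 * s := by
      rw [div_le_iff₀ (by linarith)]
      nlinarith [mul_le_mul_of_nonneg_left hsd hs0.le]
    linarith
  have hslow : s ≤ 2 * Real.sqrt (Real.log (Real.log ((m : ℝ) + 1) + 2)) := by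
    set y := Real.log ((m : ℝ) + 1) with hy
    have hy0 : 0 ≤ y := Real.log_nonneg (by linarith [Nat.cast_nonneg (α := ℝ) m])
    set v := Real.log (y + 2) with hv
    have hLy : (L : ℝ) + 1 ≤ (y + 2) ^ 4 := by
      have h1 : (Nat.log 2 (m + 1) : ℝ) * Real.log 2 ≤ y := by
        rw [← Real.log_pow, hy]
        refine Real.log_le_log (by positivity) ?_
        exact_mod_cast Nat.pow_log_le_self 2 (Nat.succ_ne_zero m)
      have h2 := Real.log_two_gt_d9
      have h3 : (L : ℝ) + 1 ≤ 2 * y + 2 := by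
        rw [hLdef]; push_cast
        nlinarith
      have h4 : (8 : ℝ) ≤ (y + 2) ^ 3 :=
        le_trans (by norm_num) (pow_le_pow_left₀ (by norm_num) (by linarith : (2 : ℝ) ≤ y + 2) 3)
      nlinarith [mul_le_mul_of_nonneg_right h4 (show (0 : ℝ) ≤ y + 2 by linarith)]
    have h5 : w ≤ 4 * v := by
      have := Real.log_le_log (by linarith) hLy
      rw [Real.log_pow] at this
      push_cast at this
      exact this
    calc s ≤ Real.sqrt (4 * v) := Real.sqrt_le_sqrt h5
      _ = 2 * Real.sqrt v := by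
        rw [Real.sqrt_mul (by norm_num), show (4 : ℝ) = 2 ^ 2 by norm_num,
          Real.sqrt_sq (by norm_num)]
  calc 55296 * ((D : ℝ) + 1) * (2 : ℝ) ^ d * Real.exp (3 + 4 * (w + 1) / d)
      ≤ 55296 * (2 * Real.exp (2 * s)) * (2 * Real.exp s) * Real.exp (7 + 4 * s) :=
        mul_le_mul (mul_le_mul (mul_le_mul_of_nonneg_left hDle (by norm_num)) hdle
          (by positivity) (by positivity)) (Real.exp_le_exp.2 hfrac) (Real.exp_pos _).le
          (by positivity)
    _ = 55296 * 4 * Real.exp 7 * Real.exp (7 * s) := by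
        rw [Real.exp_add 7 (4 * s), show 7 * s = 2 * s + s + 4 * s by ring, Real.exp_add,
          Real.exp_add]
        ring
    _ ≤ _ := by
        refine mul_le_mul_of_nonneg_left ?_ (by positivity)
        rw [slow, ← Real.exp_nat_mul]
        refine Real.exp_le_exp.2 ?_
        push_cast
        linarith

/-- `p̃_E ≤ p_E · (log n)^{o(1)}` and `p_c ≤ p_E · (log n)^{1+o(1)}`, with explicit factor
`exp (C √ log (log n + 2))`, also with `e(H) + 1` for `n`. -/
theorem result : (∃ C : ℝ, 0 < C ∧ ∀ (n : ℕ), 2 ≤ n → ∀ (V : Type) [Fintype V]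
    (H : SimpleGraph V), Fintype.card V ≤ n → H.edgeSet.Nonempty →
      (pEtilde n H ≤ C * pE n H *
          Real.exp (C * Real.sqrt (Real.log (Real.log ((H.edgeSet.ncard : ℝ) + 1) + 2))) ∧
        pc n H ≤ C * pE n H *
          Real.exp (C * Real.sqrt (Real.log (Real.log ((H.edgeSet.ncard : ℝ) + 1) + 2))) *
          Real.log ((H.edgeSet.ncard : ℝ) + 1)) ∧
      (pEtilde n H ≤ C * pE n H *
          Real.exp (C * Real.sqrt (Real.log (Real.log (n : ℝ) + 2))) ∧
        pc n H ≤ C * pE n H *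
          Real.exp (C * Real.sqrt (Real.log (Real.log (n : ℝ) + 2))) * Real.log (n : ℝ))) ∧
    ∀ ε : ℝ, 0 < ε → ∃ C : ℝ, 0 < C ∧ ∀ (n : ℕ), 2 ≤ n → ∀ (V : Type) [Fintype V]
      (H : SimpleGraph V), Fintype.card V ≤ n → H.edgeSet.Nonempty →
        pEtilde n H ≤ C * pE n H * Real.log (n : ℝ) ^ ε ∧
        pc n H ≤ C * pE n H * Real.log (n : ℝ) ^ (1 + ε) := by
  obtain ⟨K, hK, hpar⟩ := exists_spread_factor
  set C := 160 * K + 28 with hC
  have hC0 : 0 < C := by rw [hC]; linarith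
  have main : ∀ (n : ℕ), 2 ≤ n → ∀ (V : Type) [Fintype V]
      (H : SimpleGraph V), Fintype.card V ≤ n → H.edgeSet.Nonempty →
      (pEtilde n H ≤ C * pE n H *
          Real.exp (C * Real.sqrt (Real.log (Real.log ((H.edgeSet.ncard : ℝ) + 1) + 2))) ∧
        pc n H ≤ C * pE n H *
          Real.exp (C * Real.sqrt (Real.log (Real.log ((H.edgeSet.ncard : ℝ) + 1) + 2))) *
          Real.log ((H.edgeSet.ncard : ℝ) + 1)) ∧
      (pEtilde n H ≤ C * pE n H *
          Real.exp (C * Real.sqrt (Real.log (Real.log (n : ℝ) + 2))) ∧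
        pc n H ≤ C * pE n H *
          Real.exp (C * Real.sqrt (Real.log (Real.log (n : ℝ) + 2))) * Real.log (n : ℝ)) := by
    intro n hn V _ H hV hne
    set m := H.edgeFinset.card with hm
    have hncard : H.edgeSet.ncard = m := by
      rw [hm, ← SimpleGraph.coe_edgeFinset, Set.ncard_coe_finset]
    have hm1 : 1 ≤ m := Finset.card_pos.2 ⟨_, SimpleGraph.mem_edgeFinset.2 hne.choose_spec⟩
    rw [hncard]
    obtain ⟨D, d, L, hD, hd, hmL, hDL, hc⟩ := hpar m hm1
    obtain ⟨f₀⟩ : Nonempty (V ↪ Fin n) :=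
      Function.Embedding.nonempty_of_card_le (by simpa using hV)
    set c := 55296 * ((D : ℝ) + 1) * (2 : ℝ) ^ d *
      Real.exp (3 + 4 * (Real.log ((L : ℝ) + 1) + 1) / d) with hcdef
    have hc0 : 0 < c := by positivity
    have hcard : (imageEdges H f₀).card = m := key_card H f₀
    have hspread : ∀ p : ℝ, 0 ≤ p → (∀ F : H.Subgraph, 1 / 2 ≤ expCopies n p F.coe) →
        ∀ F : Finset (Sym2 (Fin n)), (cnt (Equiv.Perm (Fin n)) F (imageEdges H f₀) : ℝ) ≤
          (Fintype.card (Equiv.Perm (Fin n)) : ℝ) * (c * p) ^ F.card :=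
      fun p hp h F => Merge.cnt_le_merge hp (sparse_of_pE f₀ hp h) hD hd
        (by rw [hcard]; exact hmL) hDL F
    have hA : pEtilde n H ≤ c * pE n H :=
      le_mul_pE hV hc0 fun p hp h => pEtilde_le_of_spread f₀ hp hc0 (hspread p hp h)
    have hl0 : 0 < (Nat.log 2 m : ℝ) + 2 := by positivity
    have hB : pc n H ≤ 16 * ((Nat.log 2 m : ℝ) + 2) * c * pE n H :=
      le_mul_pE hV (by positivity) fun p hp h =>
        pc_le_of_spread f₀ hne hp hc0 (sparse_of_pE f₀ hp h) (hspread p hp h)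
    have hE0 : 0 ≤ pE n H := Real.sInf_nonneg fun x hx => hx.1
    set y := Real.log ((m : ℝ) + 1) with hy
    set z := Real.log (n : ℝ) with hz
    have hyz : y ≤ 2 * z := log_edges_le n hn H hV
    have hy0 : 0 ≤ y := Real.log_nonneg (by linarith [Nat.cast_nonneg (α := ℝ) m])
    have hz0 : 0 ≤ z := by linarith
    set E₁ := Real.exp (C * Real.sqrt (Real.log (y + 2))) with hE₁
    set E₂ := Real.exp (C * Real.sqrt (Real.log (z + 2))) with hE₂
    have hcE : ∀ a : ℝ, Real.sqrt (Real.log (y + 2)) ≤ 2 * a → 0 ≤ a →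
        c ≤ K * Real.exp (C * a) := by
      intro a ha ha0
      refine hc.trans (mul_le_mul_of_nonneg_left ?_ (by linarith))
      rw [slow, ← Real.exp_nat_mul]
      refine Real.exp_le_exp.2 ?_
      have : (28 : ℝ) * a ≤ C * a := mul_le_mul_of_nonneg_right (by rw [hC]; linarith) ha0
      push_cast
      linarith
    have hc1 : c ≤ K * E₁ := hcE _ (by linarith [Real.sqrt_nonneg (Real.log (y + 2))])
      (Real.sqrt_nonneg _)
    have hc2 : c ≤ K * E₂ := by
      refine hcE _ ?_ (Real.sqrt_nonneg _)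
      have h1 : Real.log (y + 2) ≤ 4 * Real.log (z + 2) := by
        have h2 : y + 2 ≤ (z + 2) ^ 2 := by nlinarith
        have h3 := Real.log_le_log (by linarith) h2
        rw [Real.log_pow] at h3
        push_cast at h3
        linarith [Real.log_nonneg (show (1 : ℝ) ≤ z + 2 by linarith)]
      calc _ ≤ Real.sqrt (4 * Real.log (z + 2)) := Real.sqrt_le_sqrt h1
        _ = _ := by
          rw [Real.sqrt_mul (by norm_num), show (4 : ℝ) = 2 ^ 2 by norm_num,
            Real.sqrt_sq (by norm_num)]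
    have hl := natLog_add_two m hm1
    have hKC : K ≤ C := by rw [hC]; linarith
    have hp1 : ∀ E : ℝ, 0 ≤ E → c ≤ K * E → pEtilde n H ≤ C * pE n H * E := by
      intro E hE h
      refine hA.trans (le_of_le_of_eq (mul_le_mul_of_nonneg_right
        (h.trans (mul_le_mul_of_nonneg_right hKC hE)) hE0) ?_)
      ring
    have hp2 : ∀ E w : ℝ, 0 ≤ E → c ≤ K * E → y ≤ 2 * w → pc n H ≤ C * pE n H * E * w := by
      intro E w hE h hw
      have hw0 : 0 ≤ w := by linarith
      refine hB.trans ?_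
      calc 16 * ((Nat.log 2 m : ℝ) + 2) * c * pE n H
          ≤ 16 * (10 * w) * (K * E) * pE n H := by
            refine mul_le_mul_of_nonneg_right ?_ hE0
            exact mul_le_mul (by linarith) h hc0.le (by positivity)
        _ ≤ C * E * w * pE n H := by
            refine mul_le_mul_of_nonneg_right ?_ hE0
            have : 160 * K * (E * w) ≤ C * (E * w) :=
              mul_le_mul_of_nonneg_right (by rw [hC]; linarith) (mul_nonneg hE hw0)
            linarith
        _ = _ := by ring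
    exact ⟨⟨hp1 E₁ (Real.exp_pos _).le hc1, hp2 E₁ y (Real.exp_pos _).le hc1 (by linarith)⟩,
      ⟨hp1 E₂ (Real.exp_pos _).le hc2, hp2 E₂ z (Real.exp_pos _).le hc2 hyz⟩⟩
  refine ⟨⟨C, hC0, main⟩, fun ε hε => ?_⟩
  refine ⟨C * Real.exp (C ^ 2 / (4 * ε)) * (5 : ℝ) ^ ε, by positivity, fun n hn V _ H hV hne => ?_⟩
  obtain ⟨-, h1, h2⟩ := main n hn V H hV hne
  set z := Real.log (n : ℝ) with hz
  have hzlow : 1 / 2 ≤ z := by
    have := Real.log_two_gt_d9
    have : Real.log 2 ≤ z := Real.log_le_log (by norm_num) (by exact_mod_cast hn)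
    linarith
  have hz0 : 0 < z := by linarith
  have hE : Real.exp (C * Real.sqrt (Real.log (z + 2))) ≤
      Real.exp (C ^ 2 / (4 * ε)) * (5 : ℝ) ^ ε * z ^ ε := by
    rw [mul_assoc, ← Real.mul_rpow (by norm_num) hz0.le,
      Real.rpow_def_of_pos (show (0 : ℝ) < 5 * z by linarith), ← Real.exp_add]
    refine Real.exp_le_exp.2 ?_
    set v := Real.log (z + 2) with hv
    have hv0 : 0 ≤ v := Real.log_nonneg (by linarith)
    have hv5 : v ≤ Real.log (5 * z) := Real.log_le_log (by linarith) (by linarith)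
    have h5 : v * ε ≤ Real.log (5 * z) * ε := mul_le_mul_of_nonneg_right hv5 hε.le
    have key : C * Real.sqrt v ≤ C ^ 2 / (4 * ε) + v * ε := by
      rw [div_add' _ _ _ (by positivity), le_div_iff₀ (by positivity)]
      linear_combination sq_nonneg (C - 2 * ε * Real.sqrt v) + (4 * ε ^ 2) * (Real.mul_self_sqrt hv0)
    refine key.trans ?_
    linarith
  have hE0 : 0 ≤ pE n H := Real.sInf_nonneg fun x hx => hx.1
  constructor
  · refine h1.trans (le_of_le_of_eq (mul_le_mul_of_nonneg_left hE (by positivity)) ?_)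
    ring
  · refine h2.trans (le_of_le_of_eq
      (mul_le_mul_of_nonneg_right (mul_le_mul_of_nonneg_left hE (by positivity)) hz0.le) ?_)
    rw [Real.rpow_add hz0, Real.rpow_one]
    ring

end Vale.Agent.Results.P064.NearlyOneLog
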