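import Mathlib
import Vale.Agent.P064.SpreadThresholds
import Vale.Agent.P064.Tree.Bound
import Vale.Agent.P064.Tree.Acyclic

namespace Vale.Agent.Results.P064.Treewidth

open Vale.Agent.P064 SimpleGraph

open scoped Classical

lemma bound_by_pE {V : Type} {n : ℕ} {H : SimpleGraph V} {A c : ℝ} [Fintype V]
    (hn : Fintype.card V ≤ n) (hc : 0 < c)
    (h : ∀ p : ℝ, 0 ≤ p → (∀ F : H.Subgraph, 1 / 2 ≤ expCopies n p F.coe) → A ≤ c * p) :
    A ≤ c * pE n H := by
  rw [mul_comm, ← div_le_iff₀ hc]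
  refine le_csInf ⟨1, zero_le_one, le_rfl, fun F => one_mem_pE H hn F⟩ ?_
  intro p hp
  rw [div_le_iff₀ hc, mul_comm]
  exact h p hp.1 hp.2.2

lemma log_two_bound (m : ℕ) (hm : 1 ≤ m) :
    (Nat.log 2 m : ℝ) + 2 ≤ 5 * Real.log ((m : ℝ) + 1) := by
  have hm' : (1 : ℝ) ≤ m := by exact_mod_cast hm
  have h1 : (Nat.log 2 m : ℝ) * Real.log 2 ≤ Real.log ((m : ℝ) + 1) := by
    rw [← Real.log_pow]
    refine Real.log_le_log (by positivity) ?_
    have : ((2 ^ Nat.log 2 m : ℕ) : ℝ) ≤ (m : ℝ) := by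
      exact_mod_cast Nat.pow_log_le_self 2 (by omega)
    push_cast at this
    linarith
  have h2 : Real.log 2 ≤ Real.log ((m : ℝ) + 1) :=
    Real.log_le_log (by norm_num) (by linarith)
  have h3 := Real.log_two_gt_d9
  have h4 : (0 : ℝ) ≤ (Nat.log 2 m : ℝ) := Nat.cast_nonneg _
  nlinarith

/-- A graph below a chordal graph gives an elimination order of its image. -/
lemma image_elim {V : Type} [Fintype V] {n k : ℕ} {H G : SimpleGraph V} (hHG : H ≤ G)
    (ord : V → ℕ) (hinj : Function.Injective ord)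
    (hdeg : ∀ v, {w | G.Adj v w ∧ ord w < ord v}.ncard ≤ k)
    (hperf : ∀ v a b, G.Adj v a → G.Adj v b → ord a < ord v → ord b < ord v → a ≠ b → G.Adj a b)
    (f₀ : V ↪ Fin n) : Nonempty (Tree.Elim (imageEdges H f₀) k) := by
  set ord' : Fin n → ℕ := fun u =>
    if h : ∃ v, f₀ v = u then 2 * ord h.choose else 2 * u.val + 1 with hord'
  set back : Fin n → Finset (Fin n) := fun u =>
    if h : ∃ v, f₀ v = u then
      (Finset.univ.filter fun w => G.Adj h.choose w ∧ ord w < ord h.choose).map f₀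
    else ∅ with hback
  have hat : ∀ v, ord' (f₀ v) = 2 * ord v ∧
      back (f₀ v) = (Finset.univ.filter fun w => G.Adj v w ∧ ord w < ord v).map f₀ := by
    intro v
    have h : ∃ w, f₀ w = f₀ v := ⟨v, rfl⟩
    have hv : h.choose = v := f₀.injective h.choose_spec
    simp only [hord', hback, dif_pos h]
    exact ⟨by rw [hv], by rw [hv]⟩
  have hout : ∀ u, (¬ ∃ v, f₀ v = u) → ord' u = 2 * u.val + 1 ∧ back u = ∅ := fun u h => by
    simp only [hord', hback, dif_neg h]
    exact ⟨trivial, trivial⟩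
  have hmem : ∀ u, ∀ a ∈ back u, ∃ x y,
      f₀ x = u ∧ f₀ y = a ∧ G.Adj x y ∧ ord y < ord x := by
    intro u a ha
    by_cases hu : ∃ v, f₀ v = u
    · obtain ⟨x, rfl⟩ := hu
      rw [(hat x).2, Finset.mem_map] at ha
      obtain ⟨y, hy, rfl⟩ := ha
      exact ⟨x, y, rfl, rfl, (Finset.mem_filter.1 hy).2⟩
    · rw [(hout u hu).2] at ha
      exact absurd ha (Finset.notMem_empty _)
  refine ⟨⟨ord', back, fun u u' h => ?_, fun u => ?_, fun u w hw => ?_, fun u a ha b hb hab => ?_,
    fun u w he hlt => ?_, fun u he => ?_⟩⟩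
  · by_cases hu : ∃ v, f₀ v = u <;> by_cases hu' : ∃ v, f₀ v = u'
    · obtain ⟨x, rfl⟩ := hu
      obtain ⟨y, rfl⟩ := hu'
      rw [(hat x).1, (hat y).1] at h
      rw [hinj (show ord x = ord y by omega)]
    · obtain ⟨x, rfl⟩ := hu
      rw [(hat x).1, (hout u' hu').1] at h
      omega
    · obtain ⟨y, rfl⟩ := hu'
      rw [(hat y).1, (hout u hu).1] at h
      omega
    · rw [(hout u hu).1, (hout u' hu').1] at h
      exact Fin.ext (by omega)
  · by_cases hu : ∃ v, f₀ v = u
    · obtain ⟨x, rfl⟩ := hu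
      rw [(hat x).2, Finset.card_map]
      refine le_trans (le_of_eq ?_) (hdeg x)
      rw [← Set.ncard_coe_finset, Finset.coe_filter]
      simp
    · rw [(hout u hu).2, Finset.card_empty]
      exact Nat.zero_le _
  · obtain ⟨x, y, rfl, rfl, -, hlt⟩ := hmem u w hw
    rw [(hat x).1, (hat y).1]
    omega
  · obtain ⟨x, y, rfl, rfl, hxy, hy⟩ := hmem u a ha
    obtain ⟨x', z, hx', rfl, hxz, hz⟩ := hmem _ b hb
    rw [f₀.injective hx'] at hxz hz
    rw [(hat y).1, (hat z).1] at hab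
    rw [(hat z).2, Finset.mem_map]
    refine ⟨y, Finset.mem_filter.2 ⟨Finset.mem_univ _, ?_, by omega⟩, rfl⟩
    exact (hperf x y z hxy hxz hy hz fun e => by rw [e] at hab; omega).symm
  · obtain ⟨e, he, heq⟩ := Finset.mem_image.1 he
    induction e using Sym2.ind with
    | _ a b =>
      have hab : G.Adj a b := hHG (SimpleGraph.mem_edgeFinset.1 he)
      rw [Sym2.map_mk] at heq
      rcases Sym2.eq_iff.1 heq with ⟨rfl, rfl⟩ | ⟨rfl, rfl⟩ <;>
        rw [(hat a).1, (hat b).1] at hlt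
      · rw [(hat b).2, Finset.mem_map]
        exact ⟨a, Finset.mem_filter.2 ⟨Finset.mem_univ _, hab.symm, by omega⟩, rfl⟩
      · rw [(hat a).2, Finset.mem_map]
        exact ⟨b, Finset.mem_filter.2 ⟨Finset.mem_univ _, hab, by omega⟩, rfl⟩
  · obtain ⟨e, he, heq⟩ := Finset.mem_image.1 he
    induction e using Sym2.ind with
    | _ a b =>
      have hab : H.Adj a b := SimpleGraph.mem_edgeFinset.1 he
      rw [Sym2.map_mk] at heq
      rcases Sym2.eq_iff.1 heq with ⟨h1, h2⟩ | ⟨h1, h2⟩ <;>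
        exact hab.ne (f₀.injective (h1.trans h2.symm))

/-- Forests satisfy the hypothesis with `k = 1`. -/
lemma acyclic_order {V : Type} [Fintype V] {H : SimpleGraph V} (hH : H.IsAcyclic) :
    ∃ (G : SimpleGraph V) (ord : V → ℕ), H ≤ G ∧ Function.Injective ord ∧
      (∀ v, {w | G.Adj v w ∧ ord w < ord v}.ncard ≤ 1) ∧
      ∀ v a b, G.Adj v a → G.Adj v b → ord a < ord v → ord b < ord v → a ≠ b → G.Adj a b := by
  obtain ⟨par, d, h1, h2⟩ := Tree.acyclic_parent H hH
  set N := Fintype.card V with hN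
  set ι := Fintype.equivFin V with hι
  set ord : V → ℕ := fun v => d v * N + (ι v).val with hordd
  have hmono : ∀ a b, d a < d b → ord a < ord b := by
    intro a b h
    have h3 : (d a + 1) * N ≤ d b * N := Nat.mul_le_mul_right _ h
    have h4 := (ι a).isLt
    simp only [hordd]
    rw [Nat.add_mul, one_mul] at h3
    omega
  have huniq : ∀ v w, H.Adj v w → ord w < ord v → par v = some w := by
    intro v w h hlt
    refine (h2 v w h).resolve_right fun hp => ?_
    have := hmono v w (by have := (h1 _ _ hp).2; omega)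
    omega
  refine ⟨H, ord, le_rfl, fun a b h => ?_, fun v => ?_, fun v a b ha hb hla hlb hne => ?_⟩
  · have hd : d a = d b := by
      rcases lt_trichotomy (d a) (d b) with h' | h' | h'
      · exact absurd h (hmono a b h').ne
      · exact h'
      · exact absurd h (hmono b a h').ne'
    simp only [hordd, hd] at h
    exact ι.injective (Fin.ext (Nat.add_left_cancel h))
  · refine Set.ncard_le_one_iff_subsingleton.2 fun a ha b hb => ?_
    exact Option.some.inj ((huniq v a ha.1 ha.2).symm.trans (huniq v b hb.1 hb.2))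
  · exact absurd (Option.some.inj ((huniq v a ha hla).symm.trans (huniq v b hb hlb))) hne

/-- `p̃_E = O(p_E)` and `p_c = O(p_E log n)` for every graph of bounded treewidth, and this
covers all forests. -/
theorem result :
    (∀ k : ℕ, ∃ C : ℝ, 0 < C ∧ ∀ (n : ℕ), 2 ≤ n → ∀ (V : Type) [Fintype V]
      (H : SimpleGraph V), Fintype.card V ≤ n → H.edgeSet.Nonempty →
      (∃ (G : SimpleGraph V) (ord : V → ℕ), H ≤ G ∧ Function.Injective ord ∧
        (∀ v, {w | G.Adj v w ∧ ord w < ord v}.ncard ≤ k) ∧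
        ∀ v a b, G.Adj v a → G.Adj v b → ord a < ord v → ord b < ord v → a ≠ b → G.Adj a b) →
        pEtilde n H ≤ C * pE n H ∧
        pc n H ≤ C * pE n H * Real.log ((H.edgeSet.ncard : ℝ) + 1) ∧
        pc n H ≤ C * pE n H * Real.log (n : ℝ)) ∧
    ∀ (V : Type) [Fintype V] (H : SimpleGraph V), H.IsAcyclic →
      ∃ (G : SimpleGraph V) (ord : V → ℕ), H ≤ G ∧ Function.Injective ord ∧
        (∀ v, {w | G.Adj v w ∧ ord w < ord v}.ncard ≤ 1) ∧
        ∀ v a b, G.Adj v a → G.Adj v b → ord a < ord v → ord b < ord v → a ≠ b → G.Adj a b := by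
  refine ⟨fun k => ?_, fun V _ H hH => acyclic_order hH⟩
  set c := Tree.elimConst k with hc
  have hc0 : 0 < c := Tree.elimConst_pos k
  refine ⟨160 * c, by positivity, fun n hn V _ H hV hne hH => ?_⟩
  obtain ⟨f₀⟩ : Nonempty (V ↪ Fin n) :=
    Function.Embedding.nonempty_of_card_le (by simpa using hV)
  obtain ⟨G, ord, hHG, hinj, hdeg, hperf⟩ := hH
  obtain ⟨el⟩ := image_elim hHG ord hinj hdeg hperf f₀
  set m := H.edgeFinset.card with hm
  have hncard : H.edgeSet.ncard = m := by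
    rw [hm, ← SimpleGraph.coe_edgeFinset, Set.ncard_coe_finset]
  have hm1 : 1 ≤ m := Finset.card_pos.2 ⟨_, SimpleGraph.mem_edgeFinset.2 hne.choose_spec⟩
  rw [hncard]
  set ℓ := (Nat.log 2 m : ℝ) + 2 with hl
  set L := Real.log ((m : ℝ) + 1) with hLdef
  have hlL : ℓ ≤ 5 * L := log_two_bound m hm1
  have hspread : ∀ p : ℝ, 0 ≤ p → (∀ F : H.Subgraph, 1 / 2 ≤ expCopies n p F.coe) →
      ∀ F : Finset (Sym2 (Fin n)), (cnt (Equiv.Perm (Fin n)) F (imageEdges H f₀) : ℝ) ≤
        (Fintype.card (Equiv.Perm (Fin n)) : ℝ) * (c * p) ^ F.card :=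
    fun p hp h F => Tree.cnt_le_elim hp (sparse_of_pE f₀ hp h) el F
  have hE0 : 0 ≤ pE n H := Real.sInf_nonneg fun x hx => hx.1
  have hA : pEtilde n H ≤ c * pE n H :=
    bound_by_pE hV hc0 fun p hp h => pEtilde_le_of_spread f₀ hp hc0 (hspread p hp h)
  have hB : pc n H ≤ 16 * ℓ * c * pE n H :=
    bound_by_pE hV (by positivity) fun p hp h =>
      pc_le_of_spread f₀ hne hp hc0 (sparse_of_pE f₀ hp h) (hspread p hp h)
  have hLn : L ≤ 2 * Real.log (n : ℝ) := by
    have hmn : m + 1 ≤ n ^ 2 := by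
      have h1 : m ≤ (Fintype.card V).choose 2 := SimpleGraph.card_edgeFinset_le_card_choose_two
      have h2 : (Fintype.card V).choose 2 ≤ n.choose 2 := Nat.choose_le_choose 2 hV
      have h3 : n.choose 2 + 1 ≤ n ^ 2 := by
        rw [Nat.choose_two_right, pow_two]
        have h4 := Nat.div_le_self (n * (n - 1)) 2
        have h5 : n * (n - 1) + n = n * n := by
          conv_rhs => rw [show n = (n - 1) + 1 by omega]
          conv_lhs => rw [show n = (n - 1) + 1 by omega]
          simp only [Nat.add_sub_cancel]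
          ring
        omega
      omega
    rw [hLdef, show (2 : ℝ) * Real.log (n : ℝ) = ((2 : ℕ) : ℝ) * Real.log (n : ℝ) by norm_num,
      ← Real.log_pow]
    refine Real.log_le_log (by positivity) ?_
    exact_mod_cast hmn
  have hlogn : 0 ≤ Real.log (n : ℝ) := by linarith
  have hp0 : 0 ≤ c * pE n H := mul_nonneg hc0.le hE0
  have e1 := mul_le_mul_of_nonneg_right hlL hp0
  have e2 := mul_le_mul_of_nonneg_right hLn hp0
  refine ⟨?_, ?_, ?_⟩ <;> nlinarith

end Vale.Agent.Results.P064.Treewidth
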